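import Vale.Agent.P284.H673.DefsB
import Vale.Agent.P284.H593.Defs
import Vale.Agent.P284.H422.WM2
import Mathlib.Order.Filter.Ultrafilter.Basic
import Mathlib.Topology.MetricSpace.ProperSpace.Real
import Mathlib.Analysis.SpecificLimits.Basic

/-!
# Bi-orderable groups are locally indicable
-/

open Filter Topology Function

namespace Vale.Agent.P284.H673

open H593

universe u

section order

variable {G : Type u} [Group G] [LinearOrder G]

/-- bi-invariance -/
structure BiInv (G : Type u) [Group G] [LinearOrder G] : Prop where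
  l : ∀ a b c : G, b < c → a * b < a * c
  r : ∀ a b c : G, b < c → b * a < c * a

namespace BiInv

variable (h : BiInv G)
include h

theorem l' {b c : G} (a : G) (hbc : b ≤ c) : a * b ≤ a * c := by
  rcases hbc.eq_or_lt with rfl | hlt
  · exact le_rfl
  · exact (h.l a b c hlt).le

theorem r' {b c : G} (a : G) (hbc : b ≤ c) : b * a ≤ c * a := by
  rcases hbc.eq_or_lt with rfl | hlt
  · exact le_rfl
  · exact (h.r a b c hlt).le

theorem mul_le {a b c d : G} (h1 : a ≤ b) (h2 : c ≤ d) : a * c ≤ b * d :=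
  (h.l' a h2).trans (h.r' d h1)

theorem mul_lt {a b c d : G} (h1 : a < b) (h2 : c < d) : a * c < b * d :=
  (h.l a c d h2).trans (h.r d a b h1)

theorem pow_comm_le {a b : G} (hab : a * b ≤ b * a) (n : ℕ) : a * b ^ n ≤ b ^ n * a := by
  induction n with
  | zero => simp
  | succ n ih =>
    calc a * b ^ (n + 1) = (a * b ^ n) * b := by rw [pow_succ, mul_assoc]
      _ ≤ (b ^ n * a) * b := h.r' b ih
      _ = b ^ n * (a * b) := by rw [mul_assoc]
      _ ≤ b ^ n * (b * a) := h.l' _ hab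
      _ = b ^ (n + 1) * a := by rw [pow_succ, mul_assoc]

theorem pow_comm_le' {a b : G} (hab : a * b ≤ b * a) (n : ℕ) : a ^ n * b ≤ b * a ^ n := by
  induction n with
  | zero => simp
  | succ n ih =>
    calc a ^ (n + 1) * b = a ^ n * (a * b) := by rw [pow_succ, mul_assoc]
      _ ≤ a ^ n * (b * a) := h.l' _ hab
      _ = (a ^ n * b) * a := by rw [mul_assoc]
      _ ≤ (b * a ^ n) * a := h.r' a ih
      _ = b * a ^ (n + 1) := by rw [pow_succ, mul_assoc]

/-- if `a b ≤ b a` then `aⁿ bⁿ ≤ (a b)ⁿ ≤ bⁿ aⁿ` -/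
theorem pow1 {a b : G} (hab : a * b ≤ b * a) (n : ℕ) :
    a ^ n * b ^ n ≤ (a * b) ^ n ∧ (a * b) ^ n ≤ b ^ n * a ^ n := by
  induction n with
  | zero => simp
  | succ n ih =>
    constructor
    · calc a ^ (n + 1) * b ^ (n + 1) = a ^ n * ((a * b ^ n) * b) := by
            rw [pow_succ a, pow_succ b]; simp only [mul_assoc]
        _ ≤ a ^ n * ((b ^ n * a) * b) := h.l' _ (h.r' _ (h.pow_comm_le hab n))
        _ = (a ^ n * b ^ n) * (a * b) := by simp only [mul_assoc]
        _ ≤ (a * b) ^ n * (a * b) := h.r' _ ih.1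
        _ = (a * b) ^ (n + 1) := (pow_succ _ _).symm
    · calc (a * b) ^ (n + 1) = (a * b) * (a * b) ^ n := pow_succ' _ _
        _ ≤ (a * b) * (b ^ n * a ^ n) := h.l' _ ih.2
        _ = (a * b ^ (n + 1)) * a ^ n := by rw [pow_succ' b]; simp only [mul_assoc]
        _ ≤ (b ^ (n + 1) * a) * a ^ n := h.r' _ (h.pow_comm_le hab (n + 1))
        _ = b ^ (n + 1) * a ^ (n + 1) := by rw [pow_succ' a]; simp only [mul_assoc]

/-- if `b a ≤ a b` then `bⁿ aⁿ ≤ (a b)ⁿ ≤ aⁿ bⁿ` -/
theorem pow2 {a b : G} (hab : b * a ≤ a * b) (n : ℕ) :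
    b ^ n * a ^ n ≤ (a * b) ^ n ∧ (a * b) ^ n ≤ a ^ n * b ^ n := by
  induction n with
  | zero => simp
  | succ n ih =>
    constructor
    · calc b ^ (n + 1) * a ^ (n + 1) = b ^ n * (b * a ^ (n + 1)) := by
            rw [pow_succ b]; simp only [mul_assoc]
        _ ≤ b ^ n * (a ^ (n + 1) * b) := h.l' _ (h.pow_comm_le hab (n + 1))
        _ = (b ^ n * a ^ n) * (a * b) := by rw [pow_succ a]; simp only [mul_assoc]
        _ ≤ (a * b) ^ n * (a * b) := h.r' _ ih.1
        _ = (a * b) ^ (n + 1) := (pow_succ _ _).symm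
    · calc (a * b) ^ (n + 1) = (a * b) * (a * b) ^ n := pow_succ' _ _
        _ ≤ (a * b) * (a ^ n * b ^ n) := h.l' _ ih.2
        _ = a * ((b * a ^ n) * b ^ n) := by simp only [mul_assoc]
        _ ≤ a * ((a ^ n * b) * b ^ n) := h.l' _ (h.r' _ (h.pow_comm_le hab n))
        _ = a ^ (n + 1) * b ^ (n + 1) := by
            rw [pow_succ' a, pow_succ' b]; simp only [mul_assoc]

theorem one_lt_pow {z : G} (hz : 1 < z) {n : ℕ} (hn : n ≠ 0) : 1 < z ^ n := by
  induction n with
  | zero => exact (hn rfl).elim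
  | succ n ih =>
    rcases Nat.eq_zero_or_pos n with rfl | hpos
    · simpa using hz
    · have := h.mul_lt (ih hpos.ne') hz
      rwa [one_mul, ← pow_succ] at this

theorem zpow_lt {z : G} (hz : 1 < z) {k l : ℤ} (hkl : k < l) : z ^ k < z ^ l := by
  obtain ⟨n, hn⟩ : ∃ n : ℕ, l = k + n := ⟨(l - k).toNat, by omega⟩
  have h1 := h.l (z ^ k) 1 (z ^ n) (h.one_lt_pow hz (by omega))
  rwa [mul_one, ← zpow_natCast z n, ← zpow_add, ← hn] at h1

theorem lt_of_zpow {z : G} (hz : 1 < z) {k l : ℤ} (hkl : z ^ k < z ^ l) : k < l := by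
  by_contra hcon
  rcases (not_lt.1 hcon).eq_or_lt with rfl | h1
  · exact lt_irrefl _ hkl
  · exact lt_asymm hkl (h.zpow_lt hz h1)

/-- the powers of `z` are cofinal -/
theorem exists_floor {z : G} (hz : 1 < z) {S : Set G} (hS : Subgroup.closure S = ⊤)
    (h1 : ∀ s ∈ S, s ≤ z) (h2 : ∀ s ∈ S, s⁻¹ ≤ z) (g : G) :
    ∃ k : ℤ, z ^ k ≤ g ∧ g < z ^ (k + 1) := by
  have hb : ∃ n : ℕ, g ≤ z ^ n ∧ g⁻¹ ≤ z ^ n := by
    have hg : g ∈ Subgroup.closure S := by rw [hS]; trivial
    induction hg using Subgroup.closure_induction with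
    | mem s hs => exact ⟨1, by simpa using h1 s hs, by simpa using h2 s hs⟩
    | one => exact ⟨0, by simp, by simp⟩
    | mul a b _ _ ha hb =>
      obtain ⟨n, ha1, ha2⟩ := ha
      obtain ⟨m, hb1, hb2⟩ := hb
      refine ⟨n + m, ?_, ?_⟩
      · rw [pow_add]
        exact h.mul_le ha1 hb1
      · rw [mul_inv_rev, add_comm, pow_add]
        exact h.mul_le hb2 ha2
    | inv a _ ha =>
      obtain ⟨n, ha1, ha2⟩ := ha
      exact ⟨n, ha2, by simpa using ha1⟩
  obtain ⟨n, hn1, hn2⟩ := hb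
  have hlow : z ^ (-(n : ℤ)) ≤ g := by
    have h3 := h.mul_le hn2 (le_refl g)
    have h4 := h.l' (z ^ (-(n : ℤ))) h3
    rw [inv_mul_cancel, mul_one, ← mul_assoc, ← zpow_natCast z n, ← zpow_add, neg_add_cancel,
      zpow_zero, one_mul] at h4
    exact h4
  obtain ⟨k, hk, hmax⟩ := Int.exists_greatest_of_bdd (P := fun k : ℤ => z ^ k ≤ g)
    ⟨n, fun k hk => by
      by_contra hcon
      have h3 := h.zpow_lt hz (not_le.1 hcon)
      rw [zpow_natCast] at h3
      exact absurd (hk.trans hn1) (not_le.2 h3)⟩ ⟨_, hlow⟩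
  refine ⟨k, hk, ?_⟩
  by_contra hcon
  have := hmax (k + 1) (not_lt.1 hcon)
  omega

/-- a nonzero homomorphism to the reals -/
theorem exists_real_hom [hfg : Group.FG G] [Nontrivial G] :
    ∃ (f : G →* Multiplicative ℝ) (z : G), f z ≠ 1 := by
  obtain ⟨S, hS⟩ := Group.fg_def.1 hfg
  -- the largest generator
  let T : Finset G := insert 1 (S ∪ S.image (fun s => s⁻¹))
  have hT : T.Nonempty := ⟨1, Finset.mem_insert_self _ _⟩
  let z : G := T.max' hT
  have h1 : ∀ s ∈ (S : Set G), s ≤ z := fun s hs => T.le_max' s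
    (Finset.mem_insert_of_mem (Finset.mem_union_left _ hs))
  have h2 : ∀ s ∈ (S : Set G), s⁻¹ ≤ z := fun s hs => T.le_max' s⁻¹
    (Finset.mem_insert_of_mem (Finset.mem_union_right _ (Finset.mem_image_of_mem _ hs)))
  have hz : 1 < z := by
    refine lt_of_le_of_ne (T.le_max' 1 (Finset.mem_insert_self _ _)) fun hcon => ?_
    have h3 : ∀ s ∈ (S : Set G), s = 1 := by
      intro s hs
      have h4 : s ≤ 1 := hcon ▸ h1 s hs
      have h5 : s⁻¹ ≤ 1 := hcon ▸ h2 s hs
      have h6 := h.l' s h5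
      rw [mul_inv_cancel, mul_one] at h6
      exact le_antisymm h4 h6
    have h7 : Subgroup.closure (S : Set G) = ⊥ := by
      rw [eq_bot_iff, Subgroup.closure_le]
      intro s hs
      rw [h3 s hs]
      exact one_mem _
    rw [h7] at hS
    exact bot_ne_top hS
  choose k hk1 hk2 using h.exists_floor hz hS h1 h2
  have hadd : ∀ a b, k a + k b ≤ k (a * b) ∧ k (a * b) ≤ k a + k b + 1 := by
    intro a b
    constructor
    · have h3 := h.mul_le (hk1 a) (hk1 b)
      rw [← zpow_add] at h3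
      have h4 := h.lt_of_zpow hz (h3.trans_lt (hk2 (a * b)))
      omega
    · have h3 := h.mul_lt (hk2 a) (hk2 b)
      rw [← zpow_add] at h3
      have h4 := h.lt_of_zpow hz ((hk1 (a * b)).trans_lt h3)
      omega
  have hmono : ∀ a b, a ≤ b → k a ≤ k b := by
    intro a b hab
    have := h.lt_of_zpow hz ((hk1 a).trans_lt (hab.trans_lt (hk2 b)))
    omega
  have hkz : ∀ n : ℕ, k (z ^ n) = n := by
    intro n
    have h3 := hk1 (z ^ n)
    have h5 : (n : ℤ) < k (z ^ n) + 1 := h.lt_of_zpow hz (by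
      rw [zpow_natCast]
      exact hk2 (z ^ n))
    by_contra hcon
    have h6 : (n : ℤ) < k (z ^ n) := by omega
    have h7 := h.zpow_lt hz h6
    rw [zpow_natCast] at h7
    exact absurd h7 (not_lt.2 h3)
  have hpow : ∀ a (n : ℕ), (n : ℤ) * k a ≤ k (a ^ n) ∧ k (a ^ n) ≤ n * (k a + 1) := by
    intro a n
    induction n with
    | zero =>
      have := hkz 0
      rw [pow_zero] at this
      simp [this]
    | succ n ih =>
      have h3 := hadd (a ^ n) a
      rw [pow_succ]
      push_cast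
      constructor <;> nlinarith [ih.1, ih.2, h3.1, h3.2]
  have hquasi : ∀ a b (n : ℕ), k (a ^ n) + k (b ^ n) ≤ k ((a * b) ^ n) ∧
      k ((a * b) ^ n) ≤ k (a ^ n) + k (b ^ n) + 1 := by
    intro a b n
    have h3 := hadd (a ^ n) (b ^ n)
    have h4 := hadd (b ^ n) (a ^ n)
    rcases le_total (a * b) (b * a) with hab | hab
    · have h5 := h.pow1 hab n
      exact ⟨h3.1.trans (hmono _ _ h5.1), (hmono _ _ h5.2).trans (by omega)⟩
    · have h5 := h.pow2 hab n
      exact ⟨by have := h4.1.trans (hmono _ _ h5.1); omega, (hmono _ _ h5.2).trans h3.2⟩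
  -- the limit along an ultrafilter
  let U : Ultrafilter ℕ := hyperfilter ℕ
  have hU : (U : Filter ℕ) ≤ atTop := by
    rw [← Nat.cofinite_eq_atTop]
    exact hyperfilter_le_cofinite
  let q : G → ℕ → ℝ := fun a n => (k (a ^ n) : ℝ) / n
  have hL : ∀ a, ∃ L : ℝ, Tendsto (q a) U (𝓝 L) := by
    intro a
    have h3 : Set.Icc ((k a : ℝ)) (k a + 1) ∈ U.map (q a) := by
      rw [Ultrafilter.mem_map]
      filter_upwards [hU (eventually_gt_atTop 0)] with n hn
      have hn' : (0 : ℝ) < n := by exact_mod_cast hn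
      have h4 : ((n : ℝ) * k a ≤ k (a ^ n)) := by exact_mod_cast (hpow a n).1
      have h5 : ((k (a ^ n) : ℝ) ≤ n * (k a + 1)) := by exact_mod_cast (hpow a n).2
      constructor
      · rw [le_div_iff₀ hn']
        linarith
      · rw [div_le_iff₀ hn']
        linarith
    obtain ⟨L, -, hL⟩ := isCompact_Icc.ultrafilter_le_nhds' (U.map (q a)) h3
    exact ⟨L, hL⟩
  choose L hL using hL
  have hLadd : ∀ a b, L (a * b) = L a + L b := by
    intro a b
    have h3 : Tendsto (fun n => q (a * b) n - q a n - q b n) U (𝓝 (L (a * b) - L a - L b)) :=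
      ((hL (a * b)).sub (hL a)).sub (hL b)
    have h4 : Tendsto (fun n => q (a * b) n - q a n - q b n) U (𝓝 0) := by
      have h5 : Tendsto (fun n : ℕ => (1 : ℝ) / n) U (𝓝 0) :=
        tendsto_one_div_atTop_nhds_zero_nat.mono_left hU
      refine squeeze_zero_norm' ?_ h5
      filter_upwards [hU (eventually_gt_atTop 0)] with n hn
      have hn' : (0 : ℝ) < n := by exact_mod_cast hn
      have h6 : ((k (a ^ n) : ℝ) + k (b ^ n) ≤ k ((a * b) ^ n)) := by
        exact_mod_cast (hquasi a b n).1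
      have h7 : ((k ((a * b) ^ n) : ℝ) ≤ k (a ^ n) + k (b ^ n) + 1) := by
        exact_mod_cast (hquasi a b n).2
      change ‖(k ((a * b) ^ n) : ℝ) / n - (k (a ^ n) : ℝ) / n - (k (b ^ n) : ℝ) / n‖ ≤ 1 / n
      rw [← sub_div, ← sub_div, Real.norm_eq_abs, abs_div, abs_of_pos hn']
      apply div_le_div_of_nonneg_right _ hn'.le
      rw [abs_le]
      constructor <;> linarith
    have h5 := tendsto_nhds_unique h3 h4
    linarith
  have hL1 : L 1 = 0 := by
    have := hLadd 1 1
    rw [one_mul] at this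
    linarith
  have hLz : L z = 1 := by
    refine tendsto_nhds_unique (hL z) (tendsto_const_nhds.congr' ?_)
    filter_upwards [hU (eventually_gt_atTop 0)] with n hn
    have hn' : (n : ℝ) ≠ 0 := by exact_mod_cast hn.ne'
    change 1 = (k (z ^ n) : ℝ) / n
    rw [hkz n, Int.cast_natCast, div_self hn']
  refine ⟨{ toFun := fun g => Multiplicative.ofAdd (L g)
            map_one' := by rw [hL1]; rfl
            map_mul' := fun g k => by rw [hLadd]; rfl }, z, ?_⟩
  intro hcon
  have h3 : L z = 0 := hcon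
  rw [hLz] at h3
  exact one_ne_zero h3

end BiInv

end order

/-- **Bi-orderable groups are locally indicable.** -/
theorem locInd_of_biOrd {G : Type u} [Group G] (h : BiOrd G) : LocInd G := by
  intro K hK hne
  obtain ⟨o, ho⟩ := h
  have hfg : Group.FG K := (Group.fg_iff_subgroup_fg K).mpr hK
  have hnt : Nontrivial K := (Subgroup.nontrivial_iff_ne_bot K).2 hne
  have hb : BiInv K :=
    { l := fun a b c hbc => (ho a b c hbc).1
      r := fun a b c hbc => (ho a b c hbc).2 }
  obtain ⟨f, z, hz⟩ := hb.exists_real_hom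
  exact WM.exists_int_hom f hz

end Vale.Agent.P284.H673
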