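import Vale.Agent.P284.H422.Crit
import Vale.Agent.P284.H593.Defs
import Mathlib.Order.PiLex
import Mathlib.Order.WellFounded
import Mathlib.SetTheory.Cardinal.Order

/-!
# Amenable groups of homeomorphisms of the circle are locally virtually indicable

The mean translation number of an amenable group is a homomorphism; its kernel acts on the line.
-/

set_option autoImplicit false

namespace Vale.Agent.P284.H673

open Function Set
open Vale.Agent.P284 Vale.Agent.P284.H593

universe u

theorem virtInd_of_sub {K : Type u} [Group K] [Group.FG K] [Infinite K] (M : Subgroup K)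
    (hM : M.FiniteIndex) {N : Type u} [Group N] (i : M →* N) (hi : Injective i)
    (h : LocVirtInd N) : VirtInd K := by
  have hMfg : Group.FG M := Subgroup.fg_of_index_ne_zero M
  have hMinf : Infinite M := by
    by_contra hcon
    have hfin : Finite M := not_infinite_iff_finite.mp hcon
    have h1 : Finite (K ⧸ M) := Subgroup.finiteIndex_iff_finite_quotient.mp hM
    have h3 : Finite K :=
      Finite.of_equiv ((K ⧸ M) × M) (Subgroup.groupEquivQuotientProdSubgroup (s := M)).symm
    exact not_finite K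
  let e : M ≃* i.range := MonoidHom.ofInjective hi
  have hfg : Group.FG i.range := Group.fg_of_surjective (f := e.toMonoidHom) e.surjective
  have hinf' : Infinite i.range := Infinite.of_injective e e.injective
  have h1 : VirtInd i.range := h _ ((Group.fg_iff_subgroup_fg _).mp hfg) hinf'
  exact (h1.of_surjective e.toMonoidHom e.surjective).of_finiteIndex M hM

/-- A group with a homomorphism to an abelian group whose kernel is locally virtually indicable is
locally virtually indicable. -/
theorem locVirtInd_of_comm {G : Type u} [Group G] {C : Type} [CommGroup C] (τ : G →* C)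
    (h : LocVirtInd τ.ker) : LocVirtInd G := by
  intro K hK hinf
  have hKfg : Group.FG K := (Group.fg_iff_subgroup_fg K).mpr hK
  let f : K →* C := τ.comp K.subtype
  by_cases hA : Infinite f.range
  · have h1 : Group.FG f.range :=
      Group.fg_of_surjective (f := f.rangeRestrict) f.rangeRestrict_surjective
    exact (VirtInd.of_comm h1 hA).of_surjective f.rangeRestrict f.rangeRestrict_surjective
  · have hfin : Finite f.range := not_infinite_iff_finite.mp hA
    have h1 : f.ker.FiniteIndex := by
      rw [Subgroup.finiteIndex_iff_finite_quotient]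
      exact Finite.of_equiv _ (QuotientGroup.quotientKerEquivRange f).symm.toEquiv
    let i : f.ker →* τ.ker :=
      (K.subtype.comp f.ker.subtype).codRestrict τ.ker (fun x => x.2)
    refine virtInd_of_sub f.ker h1 i ?_ h
    intro a b hab
    have h1 : ((a : K) : G) = (b : K) := congrArg (fun z : τ.ker => (z : G)) hab
    exact Subtype.ext (Subtype.ext h1)

theorem leftOrd_aux {N : Type u} [Group N] {X ι : Type} [LinearOrder X] [LinearOrder ι]
    [WellFoundedLT ι] (p : ι → X) (hp : Surjective p) (φ : N → X → X)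
    (hm : ∀ g, StrictMono (φ g)) (hmul : ∀ g h x, φ (g * h) x = φ g (φ h x))
    (hf : ∀ g, (∀ x, φ g x = x) → g = 1) : LeftOrd N := by
  have h1 : ∀ x, φ 1 x = x := by
    intro x
    apply (hm 1).injective
    rw [← hmul, one_mul]
  let f : N → Lex (ι → X) := fun g => toLex (fun i => φ g (p i))
  have hfi : Injective f := by
    intro g h hgh
    have h2 : ∀ x, φ g x = φ h x := by
      intro x
      obtain ⟨i, rfl⟩ := hp x
      exact congrFun (congrArg ofLex hgh) i
    have h3 : g⁻¹ * h = 1 := by
      apply hf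
      intro x
      rw [hmul, ← h2, ← hmul, inv_mul_cancel, h1]
    exact inv_mul_eq_one.mp h3
  refine ⟨LinearOrder.lift' f hfi, fun a b c hbc => ?_⟩
  have h2 : f b < f c := hbc
  change f (a * b) < f (a * c)
  obtain ⟨i, hi1, hi2⟩ := h2
  refine ⟨i, fun j hj => ?_, ?_⟩
  · have h3 : φ b (p j) = φ c (p j) := hi1 j hj
    change φ (a * b) (p j) = φ (a * c) (p j)
    rw [hmul, hmul, h3]
  · have h3 : φ b (p i) < φ c (p i) := hi2
    change φ (a * b) (p i) < φ (a * c) (p i)
    rw [hmul, hmul]
    exact hm a h3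

/-- A group which acts faithfully on a linearly ordered set by increasing maps is left-orderable. -/
theorem leftOrd_of_act {N : Type u} [Group N] {X : Type} [iX : LinearOrder X] (φ : N → X → X)
    (hm : ∀ g, StrictMono (φ g)) (hmul : ∀ g h x, φ (g * h) x = φ g (φ h x))
    (hf : ∀ g, (∀ x, φ g x = x) → g = 1) : LeftOrd N := by
  obtain ⟨o, ho⟩ := exists_wellOrder X
  exact @leftOrd_aux N _ X X iX o ho id surjective_id φ hm hmul hf

/-- `F g` (`g : G`) are lifts to the line of the elements of a group `G` which acts on the circle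
`ℝ/ℤ` by orientation-preserving homeomorphisms. -/
def CircAct {G : Type u} [Group G] (F : G → ℝ ≃o ℝ) : Prop :=
  (∀ g x, F g (x + 1) = F g x + 1) ∧ ∀ g h, ∃ k : ℤ, ∀ x, F (g * h) x = F g (F h x) + k

namespace CircAct

variable {G : Type u} [Group G] {F : G → ℝ ≃o ℝ}

theorem add_nat (h : CircAct F) (g : G) (x : ℝ) (n : ℕ) : F g (x + n) = F g x + n := by
  induction n with
  | zero => simp
  | succ n ih =>
    push_cast
    rw [← add_assoc, h.1, ih, add_assoc]

theorem add_int (h : CircAct F) (g : G) (x : ℝ) (n : ℤ) : F g (x + n) = F g x + n := by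
  obtain ⟨m, rfl | rfl⟩ := n.eq_nat_or_neg
  · exact_mod_cast h.add_nat g x m
  · have h1 := h.add_nat g (x + ((-(m : ℤ) : ℤ) : ℝ)) m
    have h2 : x + ((-(m : ℤ) : ℤ) : ℝ) + (m : ℝ) = x := by push_cast; ring
    rw [h2] at h1
    rw [h1]
    push_cast
    ring

/-- integer displacement -/
noncomputable def wd (F : G → ℝ ≃o ℝ) (g : G) (y : ℝ) : ℤ := ⌊F g y⌋ - ⌊y⌋

theorem wd_add (h : CircAct F) (g : G) (y : ℝ) (n : ℤ) : wd F g (y + n) = wd F g y := by
  unfold wd
  rw [h.add_int, Int.floor_add_intCast, Int.floor_add_intCast]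
  ring

theorem wd_bound (h : CircAct F) (g : G) (y : ℝ) : |wd F g y| ≤ |⌊F g 0⌋| + 1 := by
  have h1 : wd F g y = wd F g (Int.fract y) := by
    have := h.wd_add g (Int.fract y) ⌊y⌋
    rwa [Int.fract_add_floor] at this
  have h2 : F g 0 ≤ F g (Int.fract y) := (F g).monotone (Int.fract_nonneg y)
  have h3 : F g (Int.fract y) < F g 0 + 1 := by
    have h4 : F g (Int.fract y) < F g (0 + 1) :=
      (F g).strictMono (by rw [zero_add]; exact Int.fract_lt_one y)
    rwa [h.1] at h4
  have h5 : ⌊F g 0⌋ ≤ ⌊F g (Int.fract y)⌋ := Int.floor_mono h2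
  have h6 : ⌊F g (Int.fract y)⌋ ≤ ⌊F g 0⌋ + 1 := by
    have := Int.floor_mono h3.le
    rwa [Int.floor_add_one] at this
  have h7 : wd F g y = ⌊F g (Int.fract y)⌋ := by
    rw [h1, wd, Int.floor_fract, sub_zero]
  rw [h7, abs_le]
  have h8 := neg_abs_le ⌊F g 0⌋
  have h9 := le_abs_self ⌊F g 0⌋
  constructor <;> omega

theorem wd_mul (_h : CircAct F) {g k : G} {c : ℤ} (hc : ∀ x, F (g * k) x = F g (F k x) + c)
    (z : ℝ) : wd F g (F k z) + wd F k z = wd F (g * k) z + (-c) := by
  unfold wd
  rw [hc, Int.floor_add_intCast]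
  ring

/-- mean translation number -/
noncomputable def tr (m : Set G → ℝ) (F : G → ℝ ≃o ℝ) (g : G) : ℝ :=
  WM.avg m (fun x => wd F g (F x 0))

theorem avg_const {m : Set G → ℝ} (hm : WM.FA m) (c : ℤ) : WM.avg m (fun _ => c) = c := by
  classical
  have h0 := hm.avg_eq (t := {c}) (w := fun _ : G => c) (fun _ => Finset.mem_singleton_self c) id
    (u := fun _ => c) (fun _ => rfl)
  rw [h0]
  have h1 : {x : G | c = c} = Set.univ := by
    ext x
    simp
  rw [Finset.sum_singleton, h1, hm.univ, mul_one, id]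

theorem avg_shiftl {m : Set G → ℝ} (hl : ∀ (g : G) (A : Set G), m {x | g * x ∈ A} = m A)
    (u : G → ℤ) (g : G) : WM.avg m (fun x => u (g * x)) = WM.avg m u := by
  unfold WM.avg
  refine finsum_congr fun j => ?_
  rw [← hl g {x | u x = j}]
  rfl

theorem tr_mul (h : CircAct F) {m : Set G → ℝ} (hm : WM.FA m)
    (hl : ∀ (g : G) (A : Set G), m {x | g * x ∈ A} = m A) {g k : G} {c : ℤ}
    (hc : ∀ x, F (g * k) x = F g (F k x) + c) : tr m F (g * k) = tr m F g + tr m F k + c := by
  have h1 : ∀ x, wd F g (F (k * x) 0) + wd F k (F x 0) = wd F (g * k) (F x 0) + (-c) := by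
    intro x
    obtain ⟨c', hc'⟩ := h.2 k x
    rw [hc', h.wd_add, h.wd_mul hc]
  let D : ℤ := |⌊F g 0⌋| + |⌊F k 0⌋| + |⌊F (g * k) 0⌋| + |c| + 1
  have p1 := abs_nonneg ⌊F g 0⌋
  have p2 := abs_nonneg ⌊F k 0⌋
  have p3 := abs_nonneg ⌊F (g * k) 0⌋
  have p4 := abs_nonneg c
  have h2 := hm.avg_add (u := fun x => wd F g (F (k * x) 0)) (v := fun x => wd F k (F x 0))
    (D := D) (fun x => (h.wd_bound _ _).trans (by omega))
    (fun x => (h.wd_bound _ _).trans (by omega))
  have h3 := hm.avg_add (u := fun x => wd F (g * k) (F x 0)) (v := fun _ => -c)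
    (D := D) (fun x => (h.wd_bound _ _).trans (by omega))
    (fun x => by rw [abs_neg]; omega)
  have h4 : WM.avg m (fun x => wd F g (F (k * x) 0) + wd F k (F x 0)) =
      WM.avg m (fun x => wd F (g * k) (F x 0) + (-c)) := by
    congr 1
    funext x
    exact h1 x
  rw [h2, h3, avg_const hm, avg_shiftl hl (fun x => wd F g (F x 0)) k] at h4
  unfold tr
  push_cast at h4
  linarith

/-- **Amenable groups of orientation-preserving homeomorphisms of the circle are locally virtually
indicable.** -/
theorem locVirtInd (h : CircAct F) (hf : ∀ (g : G) (k : ℤ), (∀ x, F g x = x + k) → g = 1)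
    (ha : Amen G) : LocVirtInd G := by
  have ha' := ha
  obtain ⟨m, h1, h2, h3, hl⟩ := ha'
  have hm : WM.FA m := ⟨h1, h2, h3⟩
  let τ : G →* Multiplicative (ℝ ⧸ AddSubgroup.zmultiples (1 : ℝ)) :=
    MonoidHom.mk' (fun g => Multiplicative.ofAdd (QuotientAddGroup.mk (tr m F g))) (by
      intro g k
      obtain ⟨c, hc⟩ := h.2 g k
      rw [h.tr_mul hm hl hc, ← ofAdd_add, ← QuotientAddGroup.mk_add]
      congr 1
      rw [QuotientAddGroup.eq]
      refine AddSubgroup.mem_zmultiples_iff.mpr ⟨-c, ?_⟩
      rw [zsmul_eq_mul]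
      push_cast
      ring)
  have hτ : ∀ g : τ.ker, ∃ n : ℤ, tr m F (g : G) = n := by
    rintro ⟨g, hg⟩
    have h4 : (QuotientAddGroup.mk (tr m F g) : ℝ ⧸ AddSubgroup.zmultiples (1 : ℝ)) = 0 := by
      have := congrArg Multiplicative.toAdd hg
      exact this
    rw [QuotientAddGroup.eq_zero_iff, AddSubgroup.mem_zmultiples_iff] at h4
    obtain ⟨n, hn⟩ := h4
    refine ⟨n, ?_⟩
    rw [← hn, zsmul_eq_mul, mul_one]
  choose n hn using hτ
  have hlo : LeftOrd τ.ker := by
    refine leftOrd_of_act (X := ℝ) (fun g x => F (g : G) x - n g) ?_ ?_ ?_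
    · intro g x y hxy
      exact sub_lt_sub_right ((F (g : G)).strictMono hxy) _
    · intro g k x
      obtain ⟨c, hc⟩ := h.2 (g : G) (k : G)
      have h5 := h.tr_mul hm hl hc
      have h6 : tr m F ((g : G) * (k : G)) = n (g * k) := hn (g * k)
      rw [h6, hn, hn] at h5
      have h7 : F (g : G) (F (k : G) x - n k) = F (g : G) (F (k : G) x) - n k := by
        have := h.add_int (g : G) (F (k : G) x) (-(n k))
        push_cast at this
        rw [sub_eq_add_neg, this]
        ring
      change F ((g : G) * (k : G)) x - n (g * k) = F (g : G) (F (k : G) x - n k) - n g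
      rw [h7, hc, h5]
      ring
    · intro g hg
      apply Subtype.ext
      refine hf (g : G) (n g) fun x => ?_
      have := hg x
      linarith
  refine locVirtInd_of_comm τ ?_
  exact locVirtInd_of_amen (ha.subgroup τ.ker) ⟨⊤, inferInstance, hlo.subgroup ⊤⟩

end CircAct

end Vale.Agent.P284.H673
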