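import Mathlib.FieldTheory.IsAlgClosed.Classification
import Mathlib.RingTheory.Localization.Cardinality
import Mathlib.Algebra.MvPolynomial.Cardinal
import Mathlib.Analysis.Complex.Polynomial.Basic
import Mathlib.Analysis.Complex.Cardinality

/-! Countable domains of characteristic zero embed into the complex numbers. -/

set_option autoImplicit false

namespace Vale.Agent.P284.H673

open Cardinal

/-- A countable domain of characteristic zero embeds into `ℂ`. -/
theorem exists_injective_complex (D : Type) [CommRing D] [IsDomain D] [CharZero D] [Countable D] :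
    ∃ φ : D →+* ℂ, Function.Injective φ := by
  let A : Type := MvPolynomial ℝ D
  let F : Type := FractionRing A
  let L : Type := AlgebraicClosure F
  have hA : #A = 𝔠 := by
    change #(MvPolynomial ℝ D) = 𝔠
    rw [MvPolynomial.cardinalMk_eq_max, mk_real]
    have h1 : #D ≤ ℵ₀ := mk_le_aleph0
    have h2 : ℵ₀ ≤ 𝔠 := aleph0_le_continuum
    rw [sup_eq_right.mpr (h1.trans h2), sup_eq_left.mpr h2]
  have hF : #F = 𝔠 := (IsLocalization.cardinalMk F (nonZeroDivisors A) le_rfl).trans hA
  have hAL : Function.Injective (algebraMap F L) := (algebraMap F L).injective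
  have hL : #L = 𝔠 := by
    refine le_antisymm ?_ ?_
    · refine (Algebra.IsAlgebraic.cardinalMk_le_max F L).trans ?_
      rw [hF, max_eq_left aleph0_le_continuum]
    · rw [← hF]
      exact mk_le_of_injective hAL
  have h0 : CharZero A := by
    change CharZero (MvPolynomial ℝ D)
    infer_instance
  have h1 : CharZero F := IsFractionRing.charZero A
  have h2 : CharZero L := charZero_of_injective_algebraMap hAL
  obtain ⟨e⟩ := IsAlgClosed.ringEquiv_of_equiv_of_charZero (K := L) (L := ℂ)
    (by rw [hL]; exact aleph0_lt_continuum)
    (Cardinal.eq.mp (by rw [hL, mk_complex]))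
  refine ⟨e.toRingHom.comp ((algebraMap F L).comp ((algebraMap A F).comp
    (MvPolynomial.C : D →+* MvPolynomial ℝ D))), ?_⟩
  exact e.injective.comp (hAL.comp ((IsFractionRing.injective A F).comp
    (MvPolynomial.C_injective ℝ D)))

end Vale.Agent.P284.H673
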