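import Vale.Agent.P284.Bdl.B1
import Mathlib.Analysis.Calculus.FDeriv.Basic
import Mathlib.Analysis.Normed.Module.FiniteDimension
import Mathlib.Topology.Algebra.Module.FiniteDimension

/-!
# Thurston's stability theorem for groups of germs

A finitely generated nontrivial group of germs at `0` of `C¹` maps tangent to the identity maps
onto `ℤ`.
-/

open Filter Topology Function

namespace Vale.Agent.P284.H673

universe u v

variable {G : Type u} [Group G] {E : Type v} [NormedAddCommGroup E] [NormedSpace ℝ E]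

/-- `G` acts by germs at `0` of maps which are strictly differentiable at `0` with derivative
the identity. -/
structure TanAct (ρ : G → E → E) : Prop where
  zero : ∀ g, ρ g 0 = 0
  one : ∀ᶠ x in 𝓝 (0 : E), ρ 1 x = x
  mul : ∀ g h, ∀ᶠ x in 𝓝 (0 : E), ρ (g * h) x = ρ g (ρ h x)
  diff : ∀ g, HasStrictFDerivAt (ρ g) (ContinuousLinearMap.id ℝ E) 0

namespace TanAct

variable {ρ : G → E → E} (h : TanAct ρ)
include h

theorem cocycle (g k : G) {ε : ℝ} (hε : 0 < ε) : ∀ᶠ x in 𝓝 (0 : E),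
    ‖(ρ (g * k) x - x) - (ρ g x - x) - (ρ k x - x)‖ ≤ ε * ‖ρ k x - x‖ := by
  have h1 : ∀ᶠ p : E × E in 𝓝 ((0 : E), (0 : E)),
      ‖ρ g p.1 - ρ g p.2 - (ContinuousLinearMap.id ℝ E) (p.1 - p.2)‖ ≤ ε * ‖p.1 - p.2‖ :=
    (h.diff g).isLittleO.def hε
  have h2 : Tendsto (fun x : E => (ρ k x, x)) (𝓝 0) (𝓝 ((0 : E), (0 : E))) := by
    have h3 : Tendsto (ρ k) (𝓝 0) (𝓝 0) := by
      have := (h.diff k).continuousAt.tendsto
      rwa [h.zero k] at this
    exact (h3.prodMk_nhds tendsto_id)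
  filter_upwards [h2.eventually h1, h.mul g k] with x hx hm
  rw [hm]
  have e : (ρ g (ρ k x) - x) - (ρ g x - x) - (ρ k x - x)
      = ρ g (ρ k x) - ρ g x - (ContinuousLinearMap.id ℝ E) (ρ k x - x) := by
    simp only [ContinuousLinearMap.coe_id', id_eq]
    abel
  rw [e]
  exact hx

theorem bound {S : Finset G} (hS : Subgroup.closure (S : Set G) = ⊤) (g : G) :
    ∃ C : ℝ, 0 ≤ C ∧ ∀ᶠ x in 𝓝 (0 : E), ‖ρ g x - x‖ ≤ C * ∑ s ∈ S, ‖ρ s x - x‖ := by
  have hM : ∀ x, 0 ≤ ∑ s ∈ S, ‖ρ s x - x‖ := fun x => Finset.sum_nonneg fun _ _ => norm_nonneg _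
  have hg : g ∈ Subgroup.closure (S : Set G) := by rw [hS]; trivial
  induction hg using Subgroup.closure_induction with
  | mem s hs =>
    refine ⟨1, zero_le_one, Eventually.of_forall fun x => ?_⟩
    rw [one_mul]
    exact Finset.single_le_sum (f := fun s => ‖ρ s x - x‖) (fun _ _ => norm_nonneg _) hs
  | one =>
    refine ⟨0, le_refl 0, ?_⟩
    filter_upwards [h.one] with x hx
    rw [hx, sub_self, norm_zero, zero_mul]
  | mul g k _ _ hg hk =>
    obtain ⟨C, hC, h1⟩ := hg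
    obtain ⟨D, hD, h2⟩ := hk
    refine ⟨C + 2 * D, by positivity, ?_⟩
    filter_upwards [h1, h2, h.cocycle g k one_pos] with x h1 h2 h3
    have h4 : ‖ρ (g * k) x - x‖ ≤ ‖(ρ (g * k) x - x) - (ρ g x - x) - (ρ k x - x)‖
        + ‖ρ g x - x‖ + ‖ρ k x - x‖ := by
      have e : ρ (g * k) x - x = ((ρ (g * k) x - x) - (ρ g x - x) - (ρ k x - x))
          + (ρ g x - x) + (ρ k x - x) := by abel
      calc ‖ρ (g * k) x - x‖ = ‖((ρ (g * k) x - x) - (ρ g x - x) - (ρ k x - x))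
          + (ρ g x - x) + (ρ k x - x)‖ := by rw [← e]
        _ ≤ _ := norm_add₃_le
    nlinarith [hM x]
  | inv g _ hg =>
    obtain ⟨C, hC, h1⟩ := hg
    refine ⟨2 * C, by positivity, ?_⟩
    filter_upwards [h1, h.cocycle g⁻¹ g one_pos, h.one] with x h1 h3 h0
    rw [inv_mul_cancel, h0, sub_self, zero_sub] at h3
    have h4 : ‖ρ g⁻¹ x - x‖ ≤ ‖-(ρ g⁻¹ x - x) - (ρ g x - x)‖ + ‖ρ g x - x‖ := by
      have e : -(ρ g⁻¹ x - x) = (-(ρ g⁻¹ x - x) - (ρ g x - x)) + (ρ g x - x) := by abel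
      calc ‖ρ g⁻¹ x - x‖ = ‖-(ρ g⁻¹ x - x)‖ := (norm_neg _).symm
        _ = ‖(-(ρ g⁻¹ x - x) - (ρ g x - x)) + (ρ g x - x)‖ := by rw [← e]
        _ ≤ _ := norm_add_le _ _
    nlinarith [hM x]

/-- **Thurston's stability theorem**, for germs. -/
theorem exists_surj [FiniteDimensional ℝ E] (hG : Group.FG G)
    (hne : ∃ g, ¬ ∀ᶠ x in 𝓝 (0 : E), ρ g x = x) :
    ∃ f : G →* Multiplicative ℤ, Surjective f := by
  have hproper : ProperSpace E := FiniteDimensional.proper_real E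
  obtain ⟨S, hS⟩ : (⊤ : Subgroup G).FG := Group.fg_def.1 hG
  let M : E → ℝ := fun x => ∑ s ∈ S, ‖ρ s x - x‖
  have hM : ∀ x, 0 ≤ M x := fun x => Finset.sum_nonneg fun _ _ => norm_nonneg _
  have hfr : ∃ᶠ x in 𝓝 (0 : E), 0 < M x := by
    obtain ⟨g, hg⟩ := hne
    obtain ⟨C, -, hC⟩ := h.bound hS g
    intro hcon
    apply hg
    filter_upwards [hC, hcon] with x h1 h2
    have h3 : M x = 0 := le_antisymm (not_lt.1 h2) (hM x)
    change ‖ρ g x - x‖ ≤ C * M x at h1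
    rw [h3, mul_zero] at h1
    exact sub_eq_zero.1 (norm_le_zero_iff.1 h1)
  have hnb : (𝓝 (0 : E) ⊓ 𝓟 {x | 0 < M x}).NeBot := frequently_mem_iff_neBot.1 hfr
  let U : Ultrafilter E := Ultrafilter.of (𝓝 (0 : E) ⊓ 𝓟 {x | 0 < M x})
  have hU : (U : Filter E) ≤ 𝓝 (0 : E) ⊓ 𝓟 {x | 0 < M x} := Ultrafilter.of_le _
  have hU1 : (U : Filter E) ≤ 𝓝 (0 : E) := hU.trans inf_le_left
  have hU2 : ∀ᶠ x in (U : Filter E), 0 < M x := (hU.trans inf_le_right) (mem_principal_self _)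
  let q : G → E → E := fun g x => (M x)⁻¹ • (ρ g x - x)
  have hq : ∀ g, ∃ C : ℝ, 0 ≤ C ∧ ∀ᶠ x in (U : Filter E), ‖q g x‖ ≤ C := by
    intro g
    obtain ⟨C, hC0, hC⟩ := h.bound hS g
    refine ⟨C, hC0, ?_⟩
    filter_upwards [hU1 hC, hU2] with x h1 h2
    change ‖ρ g x - x‖ ≤ C * M x at h1
    change ‖(M x)⁻¹ • (ρ g x - x)‖ ≤ C
    rw [norm_smul, norm_inv, Real.norm_of_nonneg h2.le, inv_mul_le_iff₀ h2, mul_comm]
    exact h1
  have hL : ∀ g, ∃ L : E, Tendsto (q g) U (𝓝 L) := by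
    intro g
    obtain ⟨C, -, hC⟩ := hq g
    have h1 : Metric.closedBall (0 : E) C ∈ U.map (q g) := by
      rw [Ultrafilter.mem_map]
      filter_upwards [hC] with x hx
      simpa using hx
    obtain ⟨L, -, hL⟩ := (isCompact_closedBall (0 : E) C).ultrafilter_le_nhds' (U.map (q g)) h1
    exact ⟨L, hL⟩
  choose L hL using hL
  have hadd : ∀ g k, L (g * k) = L g + L k := by
    intro g k
    obtain ⟨C, hC0, hC⟩ := hq k
    have h1 : Tendsto (fun x => q (g * k) x - q g x - q k x) U (𝓝 (L (g * k) - L g - L k)) :=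
      ((hL (g * k)).sub (hL g)).sub (hL k)
    have h2 : ∀ ε : ℝ, 0 < ε → ‖L (g * k) - L g - L k‖ ≤ ε * C := by
      intro ε hε
      refine le_of_tendsto h1.norm ?_
      filter_upwards [hU1 (h.cocycle g k hε), hU2, hC] with x hx hx2 hx3
      change ‖(M x)⁻¹ • (ρ (g * k) x - x) - (M x)⁻¹ • (ρ g x - x) - (M x)⁻¹ • (ρ k x - x)‖ ≤ _
      rw [← smul_sub, ← smul_sub, norm_smul]
      change ‖(M x)⁻¹ • (ρ k x - x)‖ ≤ C at hx3
      rw [norm_smul] at hx3
      calc ‖(M x)⁻¹‖ * ‖(ρ (g * k) x - x) - (ρ g x - x) - (ρ k x - x)‖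
          ≤ ‖(M x)⁻¹‖ * (ε * ‖ρ k x - x‖) := mul_le_mul_of_nonneg_left hx (norm_nonneg _)
        _ = ε * (‖(M x)⁻¹‖ * ‖ρ k x - x‖) := by ring
        _ ≤ ε * C := mul_le_mul_of_nonneg_left hx3 hε.le
    have h3 : ‖L (g * k) - L g - L k‖ ≤ 0 := by
      refine le_of_forall_pos_le_add fun δ hδ => ?_
      have h4 := h2 (δ / (C + 1)) (by positivity)
      refine h4.trans ?_
      rw [zero_add, div_mul_eq_mul_div, div_le_iff₀ (by positivity)]
      nlinarith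
    have h5 : L (g * k) - L g - L k = 0 := norm_le_zero_iff.1 h3
    rw [sub_sub, sub_eq_zero] at h5
    exact h5
  have hsum : ∑ s ∈ S, ‖L s‖ = 1 := by
    have h1 : Tendsto (fun x => ∑ s ∈ S, ‖q s x‖) U (𝓝 (∑ s ∈ S, ‖L s‖)) :=
      tendsto_finsetSum _ fun s _ => (hL s).norm
    refine tendsto_nhds_unique h1 (tendsto_const_nhds.congr' ?_)
    filter_upwards [hU2] with x hx
    change 1 = ∑ s ∈ S, ‖(M x)⁻¹ • (ρ s x - x)‖
    have h2 : ∀ s ∈ S, ‖(M x)⁻¹ • (ρ s x - x)‖ = (M x)⁻¹ * ‖ρ s x - x‖ := by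
      intro s _
      rw [norm_smul, norm_inv, Real.norm_of_nonneg hx.le]
    rw [Finset.sum_congr rfl h2, ← Finset.mul_sum]
    exact (inv_mul_cancel₀ hx.ne').symm
  obtain ⟨s, -, hs⟩ : ∃ s ∈ S, L s ≠ 0 := by
    by_contra hcon
    push Not at hcon
    rw [Finset.sum_eq_zero fun s hs => by rw [hcon s hs, norm_zero]] at hsum
    exact zero_ne_one hsum
  have hL1 : L 1 = 0 := by
    have := hadd 1 1
    rw [one_mul] at this
    exact left_eq_add.1 this
  let φ : G →* Multiplicative E :=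
    { toFun := fun g => Multiplicative.ofAdd (L g)
      map_one' := by rw [hL1]; rfl
      map_mul' := fun g k => by rw [hadd]; rfl }
  have hfg : Group.FG φ.range := Group.fg_range φ
  have hb : ∀ j : ℕ, (φ.rangeRestrict s) ^ j = 1 → j = 0 := by
    intro j hj
    have h1 : (φ s) ^ j = 1 := congrArg Subtype.val hj
    have h2 : j • L s = 0 := h1
    rw [← Nat.cast_smul_eq_nsmul ℝ] at h2
    rcases smul_eq_zero.1 h2 with h3 | h3
    · exact Nat.cast_eq_zero.1 h3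
    · exact (hs h3).elim
  obtain ⟨ψ, hψ⟩ := exists_hom_int (φ.rangeRestrict s) hb
  exact exists_surj_int (ψ.comp φ.rangeRestrict) s hψ

end TanAct

end Vale.Agent.P284.H673
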