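import Vale.Agent.P284.H673.Defs
import Vale.Agent.P284.H593.Defs
import Vale.Agent.P284.H673.Thurston
import Mathlib.Analysis.Calculus.ContDiff.RCLike
import Mathlib.Analysis.Calculus.FDeriv.Comp
import Mathlib.LinearAlgebra.Matrix.ToLin

/-!
# Groups of germs of diffeomorphisms are tame

The derivative at the fixed point is a linear representation; its kernel is locally indicable by
Thurston's stability theorem.
-/

open Filter Topology Function

namespace Vale.Agent.P284.H673

open H593

universe u v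

variable {G : Type u} [Group G] {E : Type v} [NormedAddCommGroup E] [NormedSpace ℝ E]

namespace GermAct

variable {s : G → E → E}

theorem hasStrict (h : GermAct E s) (g : G) : HasStrictFDerivAt (s g) (fderiv ℝ (s g) 0) 0 :=
  (h.2.1 g).hasStrictFDerivAt (by norm_num)

theorem fderiv_one (h : GermAct E s) : fderiv ℝ (s 1) 0 = ContinuousLinearMap.id ℝ E := by
  rw [Filter.EventuallyEq.fderiv_eq h.2.2.1]
  exact fderiv_id

theorem fderiv_mul (h : GermAct E s) (g k : G) :
    fderiv ℝ (s (g * k)) 0 = (fderiv ℝ (s g) 0).comp (fderiv ℝ (s k) 0) := by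
  rw [Filter.EventuallyEq.fderiv_eq (h.2.2.2 g k)]
  have h1 : HasFDerivAt (s g) (fderiv ℝ (s g) 0) (s k 0) := by
    rw [h.1 k]
    exact (h.hasStrict g).hasFDerivAt
  exact (h1.comp (0 : E) (h.hasStrict k).hasFDerivAt).fderiv

/-- The derivatives at `0`. -/
noncomputable def lin (h : GermAct E s) : G →* Module.End ℝ E where
  toFun g := (fderiv ℝ (s g) 0 : E →ₗ[ℝ] E)
  map_one' := by
    rw [h.fderiv_one]
    rfl
  map_mul' g k := by
    rw [h.fderiv_mul]
    rfl

variable [FiniteDimensional ℝ E]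

/-- The derivatives at `0` as complex matrices. -/
theorem exists_rep (h : GermAct E s) : ∃ (d : ℕ) (τ : G →* Matrix.GeneralLinearGroup (Fin d) ℂ),
    ∀ g, τ g = 1 → fderiv ℝ (s g) 0 = ContinuousLinearMap.id ℝ E := by
  let e : Module.End ℝ E ≃ₐ[ℝ] Matrix (Fin (Module.finrank ℝ E)) (Fin (Module.finrank ℝ E)) ℝ :=
    LinearMap.toMatrixAlgEquiv (Module.finBasis ℝ E)
  let m : Matrix (Fin (Module.finrank ℝ E)) (Fin (Module.finrank ℝ E)) ℝ →+*
      Matrix (Fin (Module.finrank ℝ E)) (Fin (Module.finrank ℝ E)) ℂ :=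
    (algebraMap ℝ ℂ).mapMatrix
  have hm : Injective m := Matrix.map_injective (algebraMap ℝ ℂ).injective
  let σ : G →* Matrix (Fin (Module.finrank ℝ E)) (Fin (Module.finrank ℝ E)) ℂ :=
    m.toMonoidHom.comp (e.toAlgHom.toRingHom.toMonoidHom.comp h.lin)
  refine ⟨Module.finrank ℝ E, σ.toHomUnits, fun g hg => ?_⟩
  have h1 : σ g = 1 := by
    have := congrArg Units.val hg
    simpa using this
  have h2 : m (e (h.lin g)) = m (e 1) := by
    rw [map_one, map_one]
    exact h1
  have h3 : h.lin g = 1 := e.injective (hm h2)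
  ext x
  exact LinearMap.congr_fun h3 x

end GermAct

variable [FiniteDimensional ℝ E] {s : G → E → E}

/-- Groups which act faithfully by germs tangent to the identity are locally indicable. -/
theorem locInd_of_tangent (h : GermAct E s) (hf : ∀ g, s g =ᶠ[𝓝 0] id → g = 1)
    (hd : ∀ g, fderiv ℝ (s g) 0 = ContinuousLinearMap.id ℝ E) : LocInd G := by
  intro K hK hne
  have hfg : Group.FG K := (Group.fg_iff_subgroup_fg K).mpr hK
  have htan : TanAct (fun k : K => s k) :=
    { zero := fun k => h.1 _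
      one := h.2.2.1
      mul := fun g k => h.2.2.2 g k
      diff := fun k => by
        have h1 := h.hasStrict (k : G)
        rwa [hd k] at h1 }
  refine htan.exists_surj hfg ?_
  by_contra hcon
  push Not at hcon
  apply hne
  rw [Subgroup.eq_bot_iff_forall]
  intro k hk
  exact hf k (hcon ⟨k, hk⟩)

theorem locInd_locVirtInd {Q : Type u} [Group Q] (h : LocInd Q) : LocVirtInd Q := by
  intro K hK hinf
  have hne : K ≠ ⊥ := by
    rintro rfl
    exact not_finite (⊥ : Subgroup Q)
  obtain ⟨f, hf⟩ := h K hK hne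
  refine ⟨⊤, inferInstance, f.comp (Subgroup.topEquiv (G := K)).toMonoidHom, ?_⟩
  exact hf.comp (Subgroup.topEquiv (G := K)).surjective

/-- **Groups of germs of `C¹` diffeomorphisms are tame.** -/
theorem tame_of_germ (h : GermAct E s) (hf : ∀ g, s g =ᶠ[𝓝 0] id → g = 1) : Tame G := by
  obtain ⟨d, τ, hτ⟩ := h.exists_rep
  refine ⟨d, τ, locInd_locVirtInd ?_⟩
  have h' : GermAct E (fun k : τ.ker => s k) :=
    ⟨fun k => h.1 _, fun k => h.2.1 _, h.2.2.1, fun g k => h.2.2.2 g k⟩
  exact locInd_of_tangent h' (fun k hk => Subtype.ext (hf k hk)) fun k => hτ k k.2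

end Vale.Agent.P284.H673
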