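import Vale.Agent.P284.Bdl.B1
import Vale.Agent.P284.H142.Res

/-!
# Virtually tame groups are tame

If a finite-index subgroup of `Q` is locally virtually indicable (tame), so is `Q`: intersect, and
induce representations.
-/

set_option autoImplicit false

namespace Vale.Agent.P284.H673

open Function
open Vale.Agent.P284 Vale.Agent.P284.H593 Vale.Agent.P284.H142

universe u

theorem virtInd_of_equiv {G G' : Type u} [Group G] [Group G'] (e : G ≃* G') (h : VirtInd G') :
    VirtInd G :=
  h.of_surjective e.toMonoidHom e.surjective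

/-- A group with a locally virtually indicable subgroup of finite index is locally virtually
indicable. -/
theorem locVirtInd_of_finiteIndex {Q : Type u} [Group Q] (H : Subgroup Q) (hH : H.FiniteIndex)
    (h : LocVirtInd H) : LocVirtInd Q := by
  intro K hK hinf
  have hKfg : Group.FG K := (Group.fg_iff_subgroup_fg K).mpr hK
  let L : Subgroup K := H.subgroupOf K
  have hL : L.FiniteIndex := Subgroup.instFiniteIndex_subgroupOf H K
  have hLfg : Group.FG L := Subgroup.fg_of_index_ne_zero L
  have hLinf : Infinite L := by
    by_contra hcon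
    have hfin : Finite L := not_infinite_iff_finite.mp hcon
    have h1 : Finite (K ⧸ L) := Subgroup.finiteIndex_iff_finite_quotient.mp hL
    have h2 : Finite ((K ⧸ L) × L) := inferInstance
    have h3 : Finite K :=
      Finite.of_equiv ((K ⧸ L) × L) (Subgroup.groupEquivQuotientProdSubgroup (s := L)).symm
    exact not_finite K
  let i : L →* H :=
    (K.subtype.comp L.subtype).codRestrict H (fun x => Subgroup.mem_subgroupOf.mp x.2)
  have hi : Injective i := by
    intro a b hab
    have h1 : ((a : K) : Q) = (b : K) := congrArg (fun z : H => (z : Q)) hab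
    exact Subtype.ext (Subtype.ext h1)
  let e : L ≃* i.range := MonoidHom.ofInjective hi
  have hfg : Group.FG i.range := Group.fg_of_surjective (f := e.toMonoidHom) e.surjective
  have hinf' : Infinite i.range := Infinite.of_injective e e.injective
  have h1 : VirtInd i.range := h _ ((Group.fg_iff_subgroup_fg _).mp hfg) hinf'
  exact (h1.of_surjective e.toMonoidHom e.surjective).of_finiteIndex L hL

/-- **Virtually tame groups are tame.** -/
theorem tame_of_finiteIndex {Q : Type u} [Group Q] (H : Subgroup Q) (hH : H.FiniteIndex)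
    (h : Tame H) : Tame Q := by
  obtain ⟨d, ρ, hρ⟩ := h
  let e : Matrix (Fin d) (Fin d) ℂ ≃ₐ[ℂ] Module.End ℂ (Fin d → ℂ) := Matrix.toLinAlgEquiv'
  let τ : H →* Module.End ℂ (Fin d → ℂ) :=
    e.toAlgHom.toRingHom.toMonoidHom.comp ((Units.coeHom _).comp ρ)
  obtain ⟨n, R, hR⟩ := exists_induced H hH τ
  have hτ : ∀ x : H, τ x = 1 → ρ x = 1 := by
    intro x hx
    have h1 : e (ρ x : Matrix (Fin d) (Fin d) ℂ) = e 1 := by
      rw [map_one]
      exact hx
    exact Units.ext (e.injective h1)
  refine ⟨n, R, locVirtInd_of_finiteIndex (H.subgroupOf R.ker)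
    (Subgroup.instFiniteIndex_subgroupOf H R.ker) ?_⟩
  let j : H.subgroupOf R.ker →* H :=
    (R.ker.subtype.comp (H.subgroupOf R.ker).subtype).codRestrict H
      (fun x => Subgroup.mem_subgroupOf.mp x.2)
  let i : H.subgroupOf R.ker →* ρ.ker :=
    j.codRestrict ρ.ker (fun x => hτ _ (hR (j x) (x.1.2)))
  refine H142.LocVirtInd.of_injective i ?_ hρ
  intro a b hab
  have h1 : (j a : Q) = j b := congrArg (fun z : ρ.ker => ((z : H) : Q)) hab
  exact Subtype.ext (Subtype.ext h1)

end Vale.Agent.P284.H673
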