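import Mathlib.Analysis.Calculus.ContDiff.Defs

/-! Groups of germs of `C¹` maps. -/

namespace Vale.Agent.P284.H673

open Filter Topology

/-- The family of maps `s g : E → E` (`g` in the group `G`) represents an action of `G` by germs at
`0` of `C¹` maps which fix `0`: near `0`, `s 1` is the identity and `s (g * h) = s g ∘ s h`. -/
def GermAct (E : Type*) [NormedAddCommGroup E] [NormedSpace ℝ E] {G : Type*} [Group G]
    (s : G → E → E) : Prop :=
  (∀ g, s g 0 = 0) ∧ (∀ g, ContDiffAt ℝ 1 (s g) 0) ∧ s 1 =ᶠ[𝓝 0] id ∧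
    ∀ g h, s (g * h) =ᶠ[𝓝 0] s g ∘ s h

end Vale.Agent.P284.H673
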