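import Mathlib.Algebra.Group.Defs
import Mathlib.Order.Defs.LinearOrder

/-! Bi-orderable groups. -/

namespace Vale.Agent.P284.H673

/-- `G` is bi-orderable: it has a linear order which is invariant under left and right
multiplication. -/
def BiOrd (G : Type*) [Group G] : Prop :=
  ∃ _ : LinearOrder G, ∀ a b c : G, b < c → a * b < a * c ∧ b * a < c * a

end Vale.Agent.P284.H673
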