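import Vale.Agent.P284.H673.Thurston
import Mathlib.Analysis.Calculus.FDeriv.Comp
import Mathlib.LinearAlgebra.Matrix.ToLin

/-!
# Groups of germs of diffeomorphisms

Under the restrictions of `Restricted`, a group which acts faithfully by germs of `C¹`
diffeomorphisms fixing a point is virtually abelian.
-/

open Filter Topology Function

namespace Vale.Agent.P284.H673

universe u v

variable {G : Type u} [Group G] {E : Type v} [NormedAddCommGroup E] [NormedSpace ℝ E]

/-- `G` acts by germs at `0` of maps of `E` which fix `0` and are strictly differentiable at `0`,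
for example by germs of `C¹` diffeomorphisms. -/
structure GermAct (ρ : G → E → E) : Prop where
  zero : ∀ g, ρ g 0 = 0
  one : ∀ᶠ x in 𝓝 (0 : E), ρ 1 x = x
  mul : ∀ g h, ∀ᶠ x in 𝓝 (0 : E), ρ (g * h) x = ρ g (ρ h x)
  diff : ∀ g, ∃ f' : E →L[ℝ] E, HasStrictFDerivAt (ρ g) f' 0

namespace GermAct

variable {ρ : G → E → E}

theorem hasStrict (h : GermAct ρ) (g : G) : HasStrictFDerivAt (ρ g) (fderiv ℝ (ρ g) 0) 0 := by
  obtain ⟨f', hf⟩ := h.diff g
  rwa [hf.hasFDerivAt.fderiv]

theorem fderiv_one (h : GermAct ρ) : fderiv ℝ (ρ 1) 0 = ContinuousLinearMap.id ℝ E := by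
  rw [Filter.EventuallyEq.fderiv_eq (f := fun x => x) h.one]
  exact fderiv_fun_id

theorem fderiv_mul (h : GermAct ρ) (g k : G) :
    fderiv ℝ (ρ (g * k)) 0 = (fderiv ℝ (ρ g) 0).comp (fderiv ℝ (ρ k) 0) := by
  rw [Filter.EventuallyEq.fderiv_eq (f := fun x => ρ g (ρ k x)) (h.mul g k)]
  have h1 : HasFDerivAt (ρ g) (fderiv ℝ (ρ g) 0) (ρ k 0) := by
    rw [h.zero k]
    exact (h.hasStrict g).hasFDerivAt
  exact (h1.comp (0 : E) (h.hasStrict k).hasFDerivAt).fderiv

/-- The derivatives at `0`. -/
noncomputable def lin (h : GermAct ρ) : G →* Module.End ℝ E where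
  toFun g := (fderiv ℝ (ρ g) 0 : E →ₗ[ℝ] E)
  map_one' := by
    rw [h.fderiv_one]
    rfl
  map_mul' g k := by
    rw [h.fderiv_mul]
    rfl

variable [FiniteDimensional ℝ E]

/-- The derivatives at `0` as complex matrices. -/
theorem exists_rep (h : GermAct ρ) : ∃ (d : ℕ) (τ : G →* Matrix.GeneralLinearGroup (Fin d) ℂ),
    ∀ g, τ g = 1 → fderiv ℝ (ρ g) 0 = ContinuousLinearMap.id ℝ E := by
  let e : Module.End ℝ E ≃ₐ[ℝ] Matrix (Fin (Module.finrank ℝ E)) (Fin (Module.finrank ℝ E)) ℝ :=
    LinearMap.toMatrixAlgEquiv (Module.finBasis ℝ E)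
  let m : Matrix (Fin (Module.finrank ℝ E)) (Fin (Module.finrank ℝ E)) ℝ →+*
      Matrix (Fin (Module.finrank ℝ E)) (Fin (Module.finrank ℝ E)) ℂ :=
    (algebraMap ℝ ℂ).mapMatrix
  have hm : Injective m := Matrix.map_injective (algebraMap ℝ ℂ).injective
  let σ : G →* Matrix (Fin (Module.finrank ℝ E)) (Fin (Module.finrank ℝ E)) ℂ :=
    m.toMonoidHom.comp (e.toAlgHom.toRingHom.toMonoidHom.comp h.lin)
  refine ⟨Module.finrank ℝ E, σ.toHomUnits, fun g hg => ?_⟩
  have h1 : σ g = 1 := by
    have := congrArg Units.val hg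
    simpa using this
  have h2 : m (e (h.lin g)) = m (e 1) := by
    rw [map_one, map_one]
    exact h1
  have h3 : h.lin g = 1 := e.injective (hm h2)
  ext x
  exact LinearMap.congr_fun h3 x

/-- The kernels of the maps to free abelian groups are virtually indicable. -/
theorem kerVirtInd (h : GermAct ρ) (hfaith : ∀ g, (∀ᶠ x in 𝓝 (0 : E), ρ g x = x) → g = 1)
    {N : ℕ} (hR : Restricted G N) : KerVirtInd G := by
  intro H hH hinf
  obtain ⟨d, τ, hτ⟩ := h.exists_rep
  have hfg : Group.FG (zKer H) := (Group.fg_iff_subgroup_fg _).mpr (hR.1 H hH).2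
  let ι : zKer H →* G := H.subtype.comp (zKer H).subtype
  have hι : Injective ι := H.subtype_injective.comp (zKer H).subtype_injective
  let τK : zKer H →* Matrix.GeneralLinearGroup (Fin d) ℂ := τ.comp ι
  rcases finite_or_infinite τK.range with hf | hi
  · -- the kernel of the derivative has finite index
    have hK' : τK.ker.FiniteIndex := by
      have h1 : Finite (zKer H ⧸ τK.ker) :=
        Finite.of_equiv _ (QuotientGroup.quotientKerEquivRange τK).symm.toEquiv
      exact Subgroup.finiteIndex_iff_finite_quotient.mpr h1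
    have hfgK : Group.FG τK.ker := inferInstance
    have hinfK : Infinite τK.ker := by
      by_contra hcon
      have h1 : Finite τK.ker := not_infinite_iff_finite.mp hcon
      have h2 : Finite (zKer H ⧸ τK.ker) := Subgroup.finiteIndex_iff_finite_quotient.mp hK'
      have h3 : Finite (zKer H) := Finite.of_equiv _ (Subgroup.groupEquivQuotientProdSubgroup
        (s := τK.ker)).symm
      exact not_finite (zKer H)
    let j : τK.ker →* G := ι.comp τK.ker.subtype
    have hj : Injective j := hι.comp τK.ker.subtype_injective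
    have htan : TanAct (fun k : τK.ker => ρ (j k)) :=
      { zero := fun k => h.zero _
        one := by simpa using h.one
        mul := fun g k => by simpa using h.mul (j g) (j k)
        diff := fun k => by
          have h1 := h.hasStrict (j k)
          rwa [hτ (j k) k.2] at h1 }
    have hne : ∃ k : τK.ker, ¬ ∀ᶠ x in 𝓝 (0 : E), ρ (j k) x = x := by
      by_contra hcon
      push Not at hcon
      have h1 : ∀ k : τK.ker, k = 1 := fun k => hj (by rw [hfaith _ (hcon k), map_one])
      have h2 : Subsingleton τK.ker := ⟨fun a b => by rw [h1 a, h1 b]⟩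
      exact not_finite τK.ker
    obtain ⟨f, hf⟩ := htan.exists_surj hfgK hne
    exact ⟨τK.ker, hK', f, hf⟩
  · -- the image of the derivative is infinite and virtually abelian
    have hle : τK.range ≤ τ.range := by
      rintro _ ⟨k, rfl⟩
      exact ⟨ι k, rfl⟩
    have hva : VirtAb τK.range :=
      (hR.2 d τ).of_comap (Subgroup.inclusion hle) (Subgroup.inclusion_injective hle)
    have hvi : VirtInd τK.range :=
      secVI_of_elemAmen (ElemAmen.of_virtAb hva) τK.range τK.range (MonoidHom.id _)
        (MonoidHom.id _) injective_id surjective_id inferInstance hi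
    exact hvi.of_surjective τK.rangeRestrict τK.rangeRestrict_surjective

/-- **Groups of germs under the restrictions are virtually abelian.** -/
theorem virtAb (h : GermAct ρ) (hfaith : ∀ g, (∀ᶠ x in 𝓝 (0 : E), ρ g x = x) → g = 1)
    {N : ℕ} (hR : Restricted G N) : VirtAb G := by
  have h1 := (tfae_restricted hR).out 0 2
  exact h1.2 (h.kerVirtInd hfaith hR)

end GermAct

end Vale.Agent.P284.H673
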