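import Vale.Agent.P284.H422.WM
import Vale.Agent.P284.H593.Defs
import Mathlib.RingTheory.Nilpotent.Basic
import Mathlib.RingTheory.Ideal.Quotient.Operations

/-! Congruence subgroups modulo a nilpotent ideal of a `ℚ`-algebra are locally indicable. -/

set_option autoImplicit false

namespace Vale.Agent.P284.H673

open Function Vale.Agent.P284

theorem functional_aux {V : Type} [AddCommGroup V] [Module ℚ V] (W : Submodule ℚ V) {x : V}
    (hx : x ∉ W) : ∃ l : V →ₗ[ℚ] ℚ, (∀ y ∈ W, l y = 0) ∧ l x ≠ 0 := by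
  obtain ⟨f, hf, hW⟩ := Submodule.exists_le_ker_of_notMem hx
  exact ⟨f, fun y hy => hW hy, hf⟩

theorem locInd_of_congr_one {Q : Type} [Group Q] {U : Type} [CommRing U] [Algebra ℚ U]
    (n : Ideal U) (hn : IsNilpotent n) {d : ℕ} (ρ : Q →* Matrix (Fin d) (Fin d) U)
    (hρ : Function.Injective ρ)
    (h1 : ∀ g i j, ρ g i j - (1 : Matrix (Fin d) (Fin d) U) i j ∈ n) : H593.LocInd Q := by
  classical
  intro K hK hne
  have hKfg : Group.FG K := (Group.fg_iff_subgroup_fg _).2 hK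
  obtain ⟨m, hm⟩ := hn
  -- the filtration
  let P : ℕ → Prop := fun k => ∀ g ∈ K, ∀ i j, ρ g i j - (1 : Matrix (Fin d) (Fin d) U) i j ∈ n ^ (k + 1)
  have hP0 : P 0 := by
    intro g _ i j
    simpa using h1 g i j
  have hPm : ∃ k, ¬ P k := by
    refine ⟨m, fun hcon => hne ?_⟩
    rw [Subgroup.eq_bot_iff_forall]
    intro g hg
    apply hρ
    rw [map_one]
    ext i j
    have h2 := hcon g hg i j
    rw [pow_succ, hm, zero_mul] at h2
    exact sub_eq_zero.mp h2
  let k := Nat.find hPm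
  have hk : ¬ P k := Nat.find_spec hPm
  have hk0 : k ≠ 0 := fun h => hk (by rw [h]; exact hP0)
  obtain ⟨l, hl⟩ := Nat.exists_eq_succ_of_ne_zero hk0
  have hPl : P l := by
    by_contra hcon
    have := Nat.find_min' hPm hcon
    omega
  rw [hl] at hk
  simp only [P] at hk
  push Not at hk
  obtain ⟨g₀, hg₀, i, j, hij⟩ := hk
  let W : Submodule ℚ U := (n ^ (l + 1 + 1)).restrictScalars ℚ
  obtain ⟨f, hfW, hf⟩ := functional_aux W (x := ρ g₀ i j - (1 : Matrix (Fin d) (Fin d) U) i j) hij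
  have hadd : ∀ g ∈ K, ∀ h ∈ K, f (ρ (g * h) i j - (1 : Matrix (Fin d) (Fin d) U) i j) =
      f (ρ g i j - (1 : Matrix (Fin d) (Fin d) U) i j) +
        f (ρ h i j - (1 : Matrix (Fin d) (Fin d) U) i j) := by
    intro g hg h hh
    have h2 : ρ (g * h) - 1 = (ρ g - 1) * (ρ h - 1) + ((ρ g - 1) + (ρ h - 1)) := by
      rw [map_mul]
      noncomm_ring
    have h3 : ρ (g * h) i j - (1 : Matrix (Fin d) (Fin d) U) i j =
        ((ρ g - 1) * (ρ h - 1)) i j + ((ρ g i j - (1 : Matrix (Fin d) (Fin d) U) i j) +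
          (ρ h i j - (1 : Matrix (Fin d) (Fin d) U) i j)) := by
      have := congrFun (congrFun h2 i) j
      simpa only [Matrix.sub_apply, Matrix.add_apply] using this
    have h4 : ((ρ g - 1) * (ρ h - 1)) i j ∈ n ^ (l + 1 + 1) := by
      rw [Matrix.mul_apply]
      refine Ideal.sum_mem _ fun a _ => ?_
      have h5 : (ρ g - 1) i a ∈ n ^ (l + 1) := by
        rw [Matrix.sub_apply]
        exact hPl g hg i a
      have h6 : (ρ h - 1) a j ∈ n := by
        rw [Matrix.sub_apply]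
        exact h1 h a j
      rw [pow_succ]
      exact Ideal.mul_mem_mul h5 h6
    rw [h3, map_add, map_add, hfW _ h4, zero_add]
  let F : K →* Multiplicative ℝ := MonoidHom.mk'
    (fun g => Multiplicative.ofAdd
      (((f (ρ (g : Q) i j - (1 : Matrix (Fin d) (Fin d) U) i j) : ℚ)) : ℝ)) (by
    intro g h
    rw [← ofAdd_add, ← Rat.cast_add, ← hadd g g.2 h h.2]
    rfl)
  refine WM.exists_int_hom F (z := ⟨g₀, hg₀⟩) ?_
  intro h
  apply hf
  have h3 : (((f (ρ g₀ i j - (1 : Matrix (Fin d) (Fin d) U) i j) : ℚ)) : ℝ) = 0 := h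
  exact_mod_cast h3

end Vale.Agent.P284.H673
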